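import Vale.Agent.P275OI.Defs
import Vale.Agent.P275NB.Bet

/-! The sections of the bridge at the times zero and one; the character variety is nice. -/

set_option linter.all false

open CategoryTheory Topology Set
open Vale.Agent.P275MO Vale.Agent.P275Z Vale.Agent.P275MM Vale.Agent.P275OI
open Vale.Agent.P275MB (cont_x cont_lam)
open Vale.Agent.P275ST (XB Rep deg)
open Vale.Agent.P275NB (bet exists_mu gen_zero)
open P275S (Nice)

noncomputable section

namespace Vale.Agent.P275S1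

variable {S : Sit} (B : S.Brg)

theorem sec_val (t : unitInterval) (x : XB S.g S.n (deg S.D)) : (sec B t x).1 = B.sg (t, x) := rfl

theorem sec_emb {t : unitInterval} (h : IsEmbedding fun x => B.sg (t, x)) :
    IsEmbedding (sec B t) :=
  IsEmbedding.of_comp (sec B t).hom.continuous continuous_subtype_val h

/-- a flat object without pole has one monodromy class -/
theorem rel_pt {z : Ob B.T.A B.T.l (tauX S.n)} (a : z.1.lam = 1) (b : z.1.x = S.p)
    {ρ ρ' : Rep S.g S.n (deg S.D)} (h : B.R.Rel B.R.i0 z.1 ρ.1) (h' : B.R.Rel B.R.i0 z.1 ρ'.1) :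
    ρ.pt = ρ'.pt := by
  have hz : z.pt ∈ DR B.T.A B.T.l (deg S.D) (tauX S.n) (B.R.V B.R.i0) :=
    ⟨a, mem_of_eq_of_mem b B.R.hp, by
      rw [(Submodule.mem_bot ℂ).1 z.pt.rep.2.2]; exact gen_zero S.adm.cop⟩
  obtain ⟨-, k⟩ := B.R.spec (tauX S.n) (fun _ _ => trivial) _ z hz
  obtain ⟨q, c, -, f⟩ := k _ h
  obtain ⟨q', c', -, f'⟩ := k _ h'
  have e := congrArg (bet (two_pos.trans_le S.adm.hn) S.adm.cop) (f.symm.trans f')
  have e1 : P275NB.toR q = ρ := Subtype.ext (congrArg Prod.snd c)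
  have e2 : P275NB.toR q' = ρ' := Subtype.ext (congrArg Prod.snd c')
  rw [← e1, ← e2]
  exact e

/-- **S1** -/
theorem s1 : S1 B := by
  obtain ⟨μ, m1, m2, m3⟩ := exists_mu (two_pos.trans_le S.adm.hn) S.adm.cop B.R.toRHD B.R.hp
  have e : (fun x => B.sg (1, x)) = μ := funext fun x => by
    obtain ⟨ρ, rfl⟩ := Quot.exists_rep x
    obtain ⟨z, a, b⟩ := B.one ρ
    have c : z.1.lam = 1 := (congrArg Mod.lam a).trans (by simpa using B.lam 1 _)
    have d : z.1.x = S.p := (congrArg Mod.x a).trans (B.x 1 _)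
    obtain ⟨ρ', u, v⟩ := m3 z c d
    exact a.symm.trans (v.symm.trans (congrArg μ (rel_pt B c d u b)))
  refine ⟨sec_emb B (e ▸ m1), Subset.antisymm ?_ fun y hy => ?_⟩
  · rintro _ ⟨x, rfl⟩
    exact (B.lam 1 x).trans (by simp)
  · obtain ⟨z, hz⟩ := pt_surj y.1
    obtain ⟨ρ, -, v⟩ := m3 z ((congrArg Mod.lam hz).trans hy) ((congrArg Mod.x hz).trans y.2)
    exact ⟨ρ.pt, Subtype.ext ((congrFun e _).trans (v.trans hz))⟩

/-- the section at the time zero -/
theorem s0 : IsEmbedding (sec B 0) ∧ range (sec B 0) = {y | y.1.lam = 0} := by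
  refine ⟨sec_emb B B.emb, Subset.antisymm ?_ fun y hy => ?_⟩
  · rintro _ ⟨x, rfl⟩
    exact (B.lam 0 x).trans (by simp)
  · obtain ⟨x, hx⟩ := B.rng y.1 hy y.2
    exact ⟨x, Subtype.ext hx⟩

theorem rng0 : range (fun x => B.sg (0, x)) = {y | y.lam = 0 ∧ y.x = S.p} := by
  refine Subset.antisymm ?_ fun y hy => B.rng y hy.1 hy.2
  rintro _ ⟨x, rfl⟩
  exact ⟨(B.lam 0 x).trans (by simp), B.x 0 x⟩

theorem cemb0 : IsClosedEmbedding fun x => B.sg (0, x) :=
  ⟨B.emb, rng0 B ▸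
    (isClosed_eq cont_lam continuous_const).inter (isClosed_eq cont_x continuous_const)⟩

theorem cemb_sec0 : IsClosedEmbedding (sec B 0) :=
  ⟨(s0 B).1, (s0 B).2 ▸ isClosed_eq (cont_lam.comp continuous_subtype_val) continuous_const⟩

theorem cemb_sec1 : IsClosedEmbedding (sec B 1) :=
  ⟨(s1 B).1, (s1 B).2 ▸ isClosed_eq (cont_lam.comp continuous_subtype_val) continuous_const⟩

/-- **NX** -/
theorem nx [Hy B.T.A B.T.l S.n] : Nice (TX S.g S.n (deg S.D)) :=
  ⟨(cemb0 B).locallyCompactSpace, B.emb.t2Space, B.emb.secondCountableTopology⟩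

end Vale.Agent.P275S1
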